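import Vale.Agent.P101.CoreAll
import Vale.Agent.P101.NoChar
import Vale.Agent.P101.Transfer

/-!
# The Kirchberg–Rørdam character question, all dimension drop algebras

For every unital separable C⋆-algebra `A` and every free ultrafilter `ω` on `ℕ`, the central
sequence algebra `F_ω(A) = A_ω ∩ A'` has no characters if and only if for all coprime
`p, q ≥ 2` there is a unital `*`-homomorphism from the dimension drop algebra `I(p,q)` to
`F_ω(A)`.
-/

namespace Vale.Agent.Results.P101.AllDimDrops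

open Vale.Agent.P101

theorem result (A : Type*) [CStarAlgebra A] [TopologicalSpace.SeparableSpace A]
    (ω : Ultrafilter ℕ) (hω : (ω : Filter ℕ) ≤ Filter.cofinite) :
    (∀ χ : FSeq A ω →⋆ₙₐ[ℂ] ℂ, χ = 0) ↔
      ∀ p q : ℕ, 2 ≤ p → 2 ≤ q → p.Coprime q →
        Nonempty (dimDropQ p q →⋆ₐ[ℂ] FSeq A ω) := by
  constructor
  · intro h p q hp hq hpq
    rw [characters_iff] at h
    rw [hom_iff]
    refine exists_dimDrop_hom (hasCopies_centralSeq A ω hω) ⟨fun χ => ?_⟩ p q (by omega)
      (by omega) hpq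
    let χ' : centralSeq A ω →⋆ₙₐ[ℂ] ℂ := χ
    have h1 : χ 1 = 1 := map_one χ
    have h2 : χ' 1 = 0 := by rw [h χ']; rfl
    have h3 : χ' 1 = χ 1 := rfl
    rw [h3, h1] at h2
    exact one_ne_zero h2
  · intro h
    rw [characters_iff]
    obtain ⟨Φ⟩ := (hom_iff A ω 2 3).1 (h 2 3 le_rfl (by norm_num) (by decide))
    intro χ
    by_contra hχ
    obtain ⟨χ'⟩ := exists_unital χ hχ
    exact dimDrop23_no_character (χ'.comp Φ)

end Vale.Agent.Results.P101.AllDimDrops
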