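import Vale.Agent.P101.Transfer
import Vale.Agent.P101.LimitChar
import Vale.Agent.P101.JSBridge

/-!
# The Kirchberg–Rørdam character question: `F_ω(A)` without characters implies `A ≅ A ⊗ 𝒵`

For every nonzero unital separable C⋆-algebra `A` and every free ultrafilter `ω` on `ℕ`: if the
central sequence algebra `F_ω(A) = A_ω ∩ A'` has no characters, then `A ≅ A ⊗ Z` (minimal tensor
product) for the Jiang–Su algebra `Z`.
-/

universe u

namespace Vale.Agent.Results.P101.JiangSuStable

open Vale.Agent.P101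

theorem result (A Z : Type u) [CStarAlgebra A] [Nontrivial A] [TopologicalSpace.SeparableSpace A]
    [CStarAlgebra Z] (hZ : IsJiangSu Z) (ω : Ultrafilter ℕ)
    (hω : (ω : Filter ℕ) ≤ Filter.cofinite) (h : NoCharacters (FSeq A ω)) :
    TensorAbsorbs A Z := by
  have hE : IsEmpty (centralSeq A ω →⋆ₐ[ℂ] ℂ) := ⟨fun χ => by
    rw [NoCharacters, characters_iff] at h
    let χ' : centralSeq A ω →⋆ₙₐ[ℂ] ℂ := χ
    have h1 : χ 1 = 1 := map_one χ
    have h2 : χ' 1 = 0 := by rw [h χ']; rfl
    have h3 : χ' 1 = χ 1 := rfl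
    rw [h3, h1] at h2
    exact one_ne_zero h2⟩
  have hsep := hZ.separable
  obtain ⟨D, hD, hdense, hpq⟩ := hZ.limit
  choose p q hp hq hc he using fun n => exists_equiv_of_isPrimeDimDrop (D n) (hpq n)
  obtain ⟨σ⟩ := exists_hom_of_limit_dimDrop hω hE D p q hD hdense fun n =>
    ⟨hp n, hq n, hc n, he n⟩
  exact hZ.tensorAbsorbs_of_hom σ

end Vale.Agent.Results.P101.JiangSuStable
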